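/-
S0170 team project, work package E (helper78): closure properties of `Effective`.
`effective_zero` is unconditional.  `effective_add_of` takes the computability of rational
addition (work package A4) as a hypothesis, so that this file is free of placeholders and
independent of the A4 module.
-/
import Crest.Agent.Helper21.BoxFlow.Defs

set_option autoImplicit false
open scoped ContDiff
open Crest.AnalysisR.BoxFlow Crest.Agent.Helper21

namespace Crest.Agent.Helper78

/-- Mixed derivatives of the zero field vanish. -/
theorem mixedDeriv_zero_field (ds : List (Fin 4)) :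
    mixedDeriv ds (fun _ => (0 : Fin 3 → ℝ)) = fun _ => 0 := by
  induction ds with
  | nil => rfl
  | cons d ds ih =>
    funext p
    show fderiv ℝ (mixedDeriv ds (fun _ => (0 : Fin 3 → ℝ))) p (direction d) = 0
    rw [ih]
    simp

/-- Mixed derivatives of a smooth field are smooth. -/
theorem contDiff_mixedDeriv (ds : List (Fin 4)) (F : Field) (hF : ContDiff ℝ ∞ F) :
    ContDiff ℝ ∞ (mixedDeriv ds F) := by
  induction ds with
  | nil => exact hF
  | cons d ds ih =>
    show ContDiff ℝ ∞ (fun p => fderiv ℝ (mixedDeriv ds F) p (direction d))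
    have h1 : ContDiff ℝ ∞ (fderiv ℝ (mixedDeriv ds F)) :=
      ih.fderiv_right (m := ∞) (by simp)
    exact h1.clm_apply contDiff_const

/-- Mixed derivatives are additive on smooth fields. -/
theorem mixedDeriv_add_field (ds : List (Fin 4)) (F G : Field) (hF : ContDiff ℝ ∞ F)
    (hG : ContDiff ℝ ∞ G) :
    mixedDeriv ds (fun p => F p + G p) = fun p => mixedDeriv ds F p + mixedDeriv ds G p := by
  induction ds with
  | nil => rfl
  | cons d ds ih =>
    funext p
    show fderiv ℝ (mixedDeriv ds (fun p => F p + G p)) p (direction d) =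
      fderiv ℝ (mixedDeriv ds F) p (direction d) + fderiv ℝ (mixedDeriv ds G) p (direction d)
    rw [ih]
    have hF' : DifferentiableAt ℝ (mixedDeriv ds F) p :=
      ((contDiff_mixedDeriv ds F hF).differentiable (by simp)) p
    have hG' : DifferentiableAt ℝ (mixedDeriv ds G) p :=
      ((contDiff_mixedDeriv ds G hG).differentiable (by simp)) p
    have := fderiv_add hF' hG'
    have h2 : (fun p => mixedDeriv ds F p + mixedDeriv ds G p) =
        mixedDeriv ds F + mixedDeriv ds G := rfl
    rw [h2, this]
    rfl

/-- The zero field is effective. -/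
theorem effective_zero : Effective (fun _ => 0) := by
  refine ⟨fun _ => 0, fun _ => 0, Computable.const _, Computable.const _, ?_, ?_⟩
  · intro ds t q n j
    rw [mixedDeriv_zero_field]
    simp only [Pi.zero_apply, Rat.cast_zero, sub_zero, abs_zero]
    positivity
  · intro ds p j
    rw [mixedDeriv_zero_field]
    simp

/-- A function into `Fin n → σ` is computable as soon as all its components are. -/
theorem computable_pi {α σ : Type*} [Primcodable α] [Primcodable σ] {n : ℕ}
    {f : α → Fin n → σ} (hf : ∀ i, Computable fun a => f a i) : Computable f :=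
  (Primrec.vector_get'.to_comp.comp (Computable.vector_ofFn hf)).of_eq fun a => by
    funext i
    simp

/-- A component of a computable function into `Fin n → σ` is computable. -/
theorem computable_apply {α σ : Type*} [Primcodable α] [Primcodable σ] {n : ℕ}
    {f : α → Fin n → σ} (hf : Computable f) (i : Fin n) : Computable fun a => f a i :=
  Computable.fin_app.comp hf (Computable.const i)

/-- Sums of effective smooth fields are effective, given computable rational addition. -/
theorem effective_add_of (hadd : Computable₂ (fun a b : ℚ => a + b))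
    (F G : Field) (hF : ContDiff ℝ ∞ F) (hG : ContDiff ℝ ∞ G)
    (eF : Effective F) (eG : Effective G) : Effective (fun p => F p + G p) := by
  obtain ⟨EF, bF, cEF, cbF, hF1, hF2⟩ := eF
  obtain ⟨EG, bG, cEG, cbG, hG1, hG2⟩ := eG
  -- the reparametrisation of the precision
  have harg : Computable
      (fun x : List (Fin 4) × (ℚ × (Fin 3 → ℚ)) × ℕ => (x.1, x.2.1, 2 * x.2.2 + 1)) := by
    have h2 : Computable (fun x : List (Fin 4) × (ℚ × (Fin 3 → ℚ)) × ℕ => 2 * x.2.2 + 1) :=
      (Primrec.succ.comp
        (Primrec.nat_mul.comp (Primrec.const 2) (Primrec.snd.comp Primrec.snd))).to_comp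
    exact Computable.pair Computable.fst
      (Computable.pair (Computable.fst.comp Computable.snd) h2)
  refine ⟨fun x => fun j => EF (x.1, x.2.1, 2 * x.2.2 + 1) j + EG (x.1, x.2.1, 2 * x.2.2 + 1) j,
    fun ds => bF ds + bG ds, ?_, ?_, ?_, ?_⟩
  · apply computable_pi
    intro j
    exact hadd.comp (computable_apply (cEF.comp harg) j) (computable_apply (cEG.comp harg) j)
  · exact (Primrec.nat_add.to_comp).comp cbF cbG
  · intro ds t q n j
    rw [mixedDeriv_add_field ds F G hF hG]
    have h1 := hF1 ds t q (2 * n + 1) j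
    have h2 := hG1 ds t q (2 * n + 1) j
    have hn : (0 : ℝ) < (n : ℝ) + 1 := by positivity
    have e : (1 : ℝ) / (((2 * n + 1 : ℕ) : ℝ) + 1) = 1 / ((n : ℝ) + 1) / 2 := by
      push_cast
      field_simp
      ring
    rw [e] at h1 h2
    have key : mixedDeriv ds F ((t : ℝ), ratPoint q) j + mixedDeriv ds G ((t : ℝ), ratPoint q) j -
        ((EF (ds, (t, q), 2 * n + 1) j + EG (ds, (t, q), 2 * n + 1) j : ℚ) : ℝ) =
        (mixedDeriv ds F ((t : ℝ), ratPoint q) j - (EF (ds, (t, q), 2 * n + 1) j : ℝ)) +
        (mixedDeriv ds G ((t : ℝ), ratPoint q) j - (EG (ds, (t, q), 2 * n + 1) j : ℝ)) := by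
      push_cast
      ring
    show |mixedDeriv ds F ((t : ℝ), ratPoint q) j + mixedDeriv ds G ((t : ℝ), ratPoint q) j -
        ((EF (ds, (t, q), 2 * n + 1) j + EG (ds, (t, q), 2 * n + 1) j : ℚ) : ℝ)| ≤ _
    rw [key]
    calc _ ≤ _ := abs_add_le _ _
      _ ≤ 1 / ((n : ℝ) + 1) / 2 + 1 / ((n : ℝ) + 1) / 2 := add_le_add h1 h2
      _ = 1 / ((n : ℝ) + 1) := by ring
  · intro ds p j
    rw [mixedDeriv_add_field ds F G hF hG]
    show |mixedDeriv ds F p j + mixedDeriv ds G p j| ≤ ((bF ds + bG ds : ℕ) : ℝ)
    push_cast
    exact (abs_add_le _ _).trans (add_le_add (hF2 ds p j) (hG2 ds p j))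

end Crest.Agent.Helper78
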