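/-
S0170 team project, work package E (helper78), closed form: `effective_add` with the exact
statement of the specification, obtained from `effective_add_of` and the computability of
rational addition proved in work package A4 (helper82).
-/
import Crest.Agent.Helper78.BoxFlow.E
import Crest.Agent.Helper82.RatComp

set_option autoImplicit false
open scoped ContDiff
open Crest.AnalysisR.BoxFlow Crest.Agent.Helper21

namespace Crest.Agent.Helper78

/-- The sum of two smooth effective fields is effective. -/
theorem effective_add (F G : Field) (hF : ContDiff ℝ ∞ F) (hG : ContDiff ℝ ∞ G)
    (eF : Effective F) (eG : Effective G) : Effective (fun p => F p + G p) :=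
  effective_add_of Crest.Agent.Helper82.rat_add F G hF hG eF eG

end Crest.Agent.Helper78
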